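import Vale.Agent.P275.H341.Psh

/-!
# The lowest weight of the isotypic parts: rows
-/

namespace Vale.Agent.P275.H490

open scoped BigOperators Topology
open Filter Vale.Agent.P275.H341

/-- expansion to second order: `f q = q ^ N (a + b / q + o (1 / q))` as `q` tends to infinity -/
def T1 (f : ℕ → ℂ) (N : ℕ) (a b : ℂ) : Prop :=
  Tendsto (fun q : ℕ => (f q / (q : ℂ) ^ N - a) * q) atTop (𝓝 b)

/-- Row SH: the growth of the hook polynomial -/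
def RowSH : Prop := ∀ (k d e : ℕ), 1 ≤ d → ∀ lam ∈ Pt k,
  2 * e = d * ∑ i, lam i * (lam i + 1) →
  Tendsto (fun q : ℕ => hk ((q : ℂ) ^ d) lam / (q : ℂ) ^ e) atTop (𝓝 1)

/-- Row ONE: the hook polynomial of the partition with one row -/
def RowONE : Prop := ∀ (k : ℕ), 1 ≤ k → ∀ (q : ℂ), q ≠ 0 → (∀ n, 0 < n → q ^ n ≠ 1) →
  hk q (fun i : Fin k => if (i : ℕ) = 0 then k else 0) = ∏ t ∈ Finset.range k, (q ^ (t + 1) - 1)

/-- Row BD: all other partitions are smaller -/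
def RowBD : Prop := ∀ (k : ℕ), ∀ lam ∈ Pt k,
  lam ≠ (fun i : Fin k => if (i : ℕ) = 0 then k else 0) →
  2 ≤ k ∧ ∑ i, lam i * (lam i + 1) + 2 ≤ k * (k + 1)

/-- Row LD: the logarithmic derivative -/
def RowLD : Prop := ∀ (a : ℕ → ℕ → ℂ) (M : ℕ) (b : ℕ → ℂ), 1 ≤ M →
  (∀ q, a q 0 = 1) → (∀ k, 1 ≤ k → T1 (fun q => a q k) (M * (k * (k + 1))) 1 (b k)) →
  ∀ K, 1 ≤ K → T1 (fun q => ld (a q) K) (M * (K * (K + 1))) K (K * b K)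

/-- Row SUM: the divisor sum -/
def RowSUM : Prop := ∀ (n m g : ℕ) (f : ℕ → ℕ → ℂ), 1 ≤ n → m ∣ n → 2 ≤ m → 2 ≤ g →
  (∀ d, d ∣ n → T1 (f d) ((g - 1) * (n * (n / Nat.lcm m d + 1))) ((n / Nat.lcm m d : ℕ) : ℂ)
    (if d = 1 then -((n : ℂ) * (2 * g - 2)) else 0)) →
  T1 (fun q => (1 / n) * ∑ d ∈ n.divisors, ((ArithmeticFunction.moebius d : ℤ) : ℂ) * f d q)
    ((g - 1) * (n * (n / m + 1))) 0 (-(2 * g - 2))

/-- Row FIN: reading off the table -/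
def RowFIN : Prop := ∀ (D R g M N : ℕ), 2 ≤ g → 1 ≤ M → D + 1 ≤ R → N + D + 2 = 2 * R + 2 * g →
  ∀ h : ℕ → ℕ → ℕ,
    (∀ k w, h k w ≠ 0 → k ≤ w ∧ w ≤ 2 * k) →
    (∀ k w, k ≤ 2 * D → h k w = 0) →
    (∑ w ∈ Finset.range (2 * (2 * D + 1) + 1), h (2 * D + 1) w = 2 * g - 2) →
    ∀ E : ℕ → ℂ, T1 E N 0 (-(2 * g - 2)) →
    (∀ p : ℕ, p.Prime → p ≡ 1 [MOD M] →
      ((p : ℂ) - 1) ^ (2 * g - 2) *
        ∑ k ∈ Finset.range (2 * R + 1), ∑ w ∈ Finset.range (2 * k + 1), (-1) ^ k * (h k w : ℂ) *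
            ((Real.sqrt p : ℝ) : ℂ) ^ (4 * R - w) = E p) →
    (∀ w, h (2 * D + 1) w = if w = 2 * (D + 1) then 2 * g - 2 else 0) ∧
    h (2 * D + 2) (2 * D + 2) = 0

end Vale.Agent.P275.H490
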