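import Vale.Agent.P275.H490.Main
import Vale.Agent.P275.H252.SH
import Vale.Agent.P275.H117.ONE
import Vale.Agent.P275.H522.BD
import Vale.Agent.P275.H615.LD
import Vale.Agent.P275.H909.SUM
import Vale.Agent.P275.H781.FIN

/-!
# The lowest weight of the isotypic parts: all rows together
-/

namespace Vale.Agent.P275.H490

open scoped BigOperators Topology
open Filter Vale.Agent.P275.H341

theorem rowOne : RowONE := Vale.Agent.P275.H117.rowONE Vale.Agent.P275.H633.rowA8

theorem eG_lim {n m g : ℕ} (hn : 1 ≤ n) (hm : m ∣ n) (hm2 : 2 ≤ m) (hg : 2 ≤ g) :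
    Tendsto (fun q : ℕ => eG n m g q / (q : ℂ) ^ ((g - 1) * (n * (n + n / m)) - 1)) atTop
      (𝓝 (-(2 * g - 2))) := by
  have h := eG_T1 Vale.Agent.P275.H252.rowSH rowOne Vale.Agent.P275.H522.rowBD
    Vale.Agent.P275.H615.rowLD Vale.Agent.P275.H909.rowSUM hn hm hm2 hg
  unfold T1 at h
  have hN : n * (n - 1) * (g - 1) + (g - 1) * (n * (n / m + 1))
      = ((g - 1) * (n * (n + n / m)) - 1) + 1 := by
    have h1 : 1 ≤ (g - 1) * (n * (n + n / m)) :=
      Nat.mul_pos (show 0 < g - 1 by omega) (Nat.mul_pos hn (Nat.add_pos_left hn _))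
    obtain ⟨b, hb⟩ := Nat.exists_eq_add_of_le hn
    have e1 : n - 1 = b := by omega
    rw [Nat.sub_add_cancel h1, e1]
    have e2 : n * b + n * (n / m + 1) = n * (n + n / m) := by
      rw [← Nat.mul_add]
      congr 1
      generalize n / m = x
      omega
    calc n * b * (g - 1) + (g - 1) * (n * (n / m + 1))
        = (g - 1) * (n * b + n * (n / m + 1)) := by ring
      _ = _ := by rw [e2]
  rw [hN] at h
  refine h.congr' ?_
  filter_upwards [ne_ev] with q hq
  rw [sub_zero, pow_succ]
  field_simp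

theorem rowTopG : RowTopG :=
  low Vale.Agent.P275.H252.rowSH rowOne Vale.Agent.P275.H522.rowBD
    Vale.Agent.P275.H615.rowLD Vale.Agent.P275.H909.rowSUM Vale.Agent.P275.H781.rowFIN

end Vale.Agent.P275.H490
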