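import Vale.Agent.P275.H490.Defs

/-!
# Second order expansions
-/

namespace Vale.Agent.P275.H490

open scoped BigOperators Topology
open Filter Vale.Agent.P275.H341

theorem inv_lim : Tendsto (fun q : ℕ => ((q : ℂ))⁻¹) atTop (𝓝 0) := by
  have h := tendsto_inv_atTop_nhds_zero_nat (𝕜 := ℂ)
  exact h

theorem ne_ev : ∀ᶠ q : ℕ in atTop, (q : ℂ) ≠ 0 := by
  filter_upwards [eventually_ge_atTop 1] with q hq
  exact_mod_cast (by omega : q ≠ 0)

theorem T1.lim {f : ℕ → ℂ} {N : ℕ} {a b : ℂ} (h : T1 f N a b) :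
    Tendsto (fun q : ℕ => f q / (q : ℂ) ^ N) atTop (𝓝 a) := by
  have h1 := (h.mul inv_lim).add_const a
  rw [mul_zero, zero_add] at h1
  refine h1.congr' ?_
  filter_upwards [ne_ev] with q hq
  field_simp
  ring

theorem T1.congr {f f' : ℕ → ℂ} {N : ℕ} {a b : ℂ} (h : T1 f N a b)
    (hf : ∀ᶠ q : ℕ in atTop, f q = f' q) : T1 f' N a b := by
  unfold T1 at h ⊢
  refine h.congr' ?_
  filter_upwards [hf] with q hq
  rw [hq]

theorem T1.mul {f f' : ℕ → ℂ} {N N' : ℕ} {a b a' b' : ℂ} (h : T1 f N a b) (h' : T1 f' N' a' b') :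
    T1 (fun q => f q * f' q) (N + N') (a * a') (a * b' + a' * b) := by
  have h1 := (Tendsto.const_mul a (show Tendsto _ _ _ from h')).add (Tendsto.mul h'.lim (show Tendsto _ _ _ from h))
  unfold T1
  refine h1.congr' ?_
  filter_upwards [ne_ev] with q hq
  rw [pow_add]
  field_simp
  ring

theorem T1.one : T1 (fun _ => 1) 0 1 0 := by
  unfold T1
  simp

theorem T1.pow {f : ℕ → ℂ} {N : ℕ} {b : ℂ} (h : T1 f N 1 b) (e : ℕ) :
    T1 (fun q => f q ^ e) (N * e) 1 (e * b) := by
  induction e with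
  | zero =>
    simpa using T1.one
  | succ e ih =>
    have h1 := ih.mul h
    have h2 : (fun q => f q ^ (e + 1)) = fun q => f q ^ e * f q := by
      funext q
      rw [pow_succ]
    rw [h2, Nat.mul_succ]
    have h3 : ((e + 1 : ℕ) : ℂ) * b = 1 * b + 1 * (e * b) := by
      push_cast
      ring
    rw [h3]
    simpa using h1

theorem T1.prod {ι : Type} (s : Finset ι) (f : ι → ℕ → ℂ) (N : ι → ℕ) (b : ι → ℂ)
    (h : ∀ i ∈ s, T1 (f i) (N i) 1 (b i)) :
    T1 (fun q => ∏ i ∈ s, f i q) (∑ i ∈ s, N i) 1 (∑ i ∈ s, b i) := by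
  classical
  induction s using Finset.induction_on with
  | empty =>
    simpa using T1.one
  | insert i s hi ih =>
    have h1 := (h i (Finset.mem_insert_self i s)).mul
      (ih fun j hj => h j (Finset.mem_insert_of_mem hj))
    have h2 : (fun q => ∏ j ∈ insert i s, f j q) = fun q => f i q * ∏ j ∈ s, f j q := by
      funext q
      rw [Finset.prod_insert hi]
    rw [h2, Finset.sum_insert hi, Finset.sum_insert hi]
    have h3 : b i + ∑ j ∈ s, b j = 1 * ∑ j ∈ s, b j + 1 * b i := by ring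
    rw [h3]
    simpa using h1

theorem T1.sum {ι : Type} (s : Finset ι) (f : ι → ℕ → ℂ) (N : ℕ) (a b : ι → ℂ)
    (h : ∀ i ∈ s, T1 (f i) N (a i) (b i)) :
    T1 (fun q => ∑ i ∈ s, f i q) N (∑ i ∈ s, a i) (∑ i ∈ s, b i) := by
  unfold T1
  have h1 := tendsto_finsetSum s (fun i hi => (show Tendsto _ _ _ from h i hi))
  refine h1.congr ?_
  intro q
  rw [Finset.sum_div, ← Finset.sum_sub_distrib, Finset.sum_mul]

theorem T1.of_lim {f : ℕ → ℂ} {N N' : ℕ} {a : ℂ}
    (h : Tendsto (fun q : ℕ => f q / (q : ℂ) ^ N') atTop (𝓝 a)) (hN : N' + 2 ≤ N) :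
    T1 f N 0 0 := by
  obtain ⟨c, rfl⟩ := Nat.exists_eq_add_of_le hN
  have h1 := (h.mul inv_lim).mul (inv_lim.pow c)
  rcases Nat.eq_zero_or_pos c with rfl | hc
  · rw [mul_zero, zero_mul] at h1
    unfold T1
    refine h1.congr' ?_
    filter_upwards [ne_ev] with q hq
    simp only [add_zero, pow_zero, mul_one, sub_zero, pow_add]
    field_simp
  · rw [mul_zero, zero_mul] at h1
    unfold T1
    refine h1.congr' ?_
    filter_upwards [ne_ev] with q hq
    simp only [sub_zero, pow_add, inv_pow]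
    field_simp

theorem T1.sub_one {n : ℕ} (hn : 1 ≤ n) :
    T1 (fun q => (q : ℂ) ^ n - 1) n 1 (if n = 1 then -1 else 0) := by
  by_cases h : n = 1
  · subst h
    unfold T1
    rw [if_pos rfl]
    refine tendsto_const_nhds.congr' ?_
    filter_upwards [ne_ev] with q hq
    field_simp
    ring
  · rw [if_neg h]
    obtain ⟨c, rfl⟩ := Nat.exists_eq_add_of_le (show 2 ≤ n by omega)
    unfold T1
    have h1 := ((inv_lim.mul (inv_lim.pow c)).neg)
    have h2 : -((0 : ℂ) * 0 ^ c) = 0 := by ring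
    rw [h2] at h1
    refine h1.congr' ?_
    filter_upwards [ne_ev] with q hq
    simp only [pow_add, inv_pow]
    field_simp
    ring

end Vale.Agent.P275.H490
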