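import Vale.Agent.P275.H490.Om
import Vale.Agent.P275.H341.All
import Vale.Agent.P275.H341.Rows4

/-!
# The lowest weight of the isotypic parts
-/

namespace Vale.Agent.P275.H490

open scoped BigOperators Topology
open Filter Vale.Agent.P275.H341

theorem eG_T1 (sh : RowSH) (one : RowONE) (bd : RowBD) (hld : RowLD) (hsum : RowSUM)
    {n m g : ℕ} (hn : 1 ≤ n) (hm : m ∣ n) (hm2 : 2 ≤ m) (hg : 2 ≤ g) :
    T1 (fun q => eG n m g q) (n * (n - 1) * (g - 1) + (g - 1) * (n * (n / m + 1))) 0
      (-(2 * g - 2)) := by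
  have hS := hsum n m g (fun d q => ld (om (powMonoidHom (2 * g - 2)) q d (m / Nat.gcd m d))
    (n / Nat.lcm m d)) hn hm hm2 hg (by
      intro d hd
      have hdpos : 0 < d := Nat.pos_of_dvd_of_pos hd hn
      have hmpos : 0 < m := by omega
      have hgpos : 0 < Nat.gcd m d := Nat.gcd_pos_of_pos_left _ hmpos
      have he : 1 ≤ m / Nat.gcd m d :=
        Nat.div_pos (Nat.le_of_dvd hmpos (Nat.gcd_dvd_left m d)) hgpos
      have hl : Nat.lcm m d ∣ n := Nat.lcm_dvd hm hd
      have hlpos : 0 < Nat.lcm m d := Nat.lcm_pos hmpos hdpos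
      have hK : 1 ≤ n / Nat.lcm m d := Nat.div_pos (Nat.le_of_dvd hn hl) hlpos
      have hlcm : d * (m / Nat.gcd m d) = Nat.lcm m d := by
        unfold Nat.lcm
        rw [mul_comm m d, Nat.mul_div_assoc _ (Nat.gcd_dvd_left m d)]
      have hM : 1 ≤ d * (m / Nat.gcd m d) * (g - 1) :=
        Nat.mul_pos (Nat.mul_pos hdpos he) (by omega)
      have h1 := hld (fun q k => om (powMonoidHom (2 * g - 2)) q d (m / Nat.gcd m d) k)
        (d * (m / Nat.gcd m d) * (g - 1))
        (fun _ => if d = 1 then -(((m / Nat.gcd m d : ℕ) : ℂ) * (2 * g - 2)) else 0)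
        hM (fun q => om_zero _ _ _ _)
        (fun k hk => om_T1 sh one bd hg hdpos he hk) (n / Nat.lcm m d) hK
      have h2 : d * (m / Nat.gcd m d) * (g - 1) * (n / Nat.lcm m d * (n / Nat.lcm m d + 1))
          = (g - 1) * (n * (n / Nat.lcm m d + 1)) := by
        rw [hlcm]
        calc Nat.lcm m d * (g - 1) * (n / Nat.lcm m d * (n / Nat.lcm m d + 1))
            = (g - 1) * ((Nat.lcm m d * (n / Nat.lcm m d)) * (n / Nat.lcm m d + 1)) := by ring
          _ = _ := by rw [Nat.mul_div_cancel' hl]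
      have h3 : ((n / Nat.lcm m d : ℕ) : ℂ) *
          (if d = 1 then -(((m / Nat.gcd m d : ℕ) : ℂ) * (2 * g - 2)) else 0)
          = if d = 1 then -((n : ℂ) * (2 * g - 2)) else 0 := by
        by_cases h : d = 1
        · subst h
          rw [if_pos rfl, if_pos rfl]
          have h4 : n / m * m = n := Nat.div_mul_cancel hm
          have h5 : (((n / m : ℕ) : ℂ)) * (m : ℂ) = n := by exact_mod_cast h4
          simp only [Nat.lcm_one_right, Nat.gcd_one_right, Nat.div_one]
          rw [← h5]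
          ring
        · rw [if_neg h, if_neg h, mul_zero]
      rw [h2, h3] at h1
      exact h1)
  have h1 : T1 (fun q : ℕ => (q : ℂ) ^ (n * (n - 1) * (g - 1))) (n * (n - 1) * (g - 1)) 1 0 := by
    unfold T1
    refine tendsto_const_nhds.congr' ?_
    filter_upwards [ne_ev] with q hq
    rw [div_self (pow_ne_zero _ hq)]
    ring
  have h2 := h1.mul hS
  rw [one_mul, one_mul, zero_mul, add_zero] at h2
  exact h2

theorem low (sh : RowSH) (one : RowONE) (bd : RowBD) (hld : RowLD) (hsum : RowSUM)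
    (fin : RowFIN) : RowTopG := by
  intro n m g hn hm hm2 hg h H0 H1 H2 H3
  obtain ⟨K, hK⟩ := hm
  have hKpos : 1 ≤ K := by
    rcases Nat.eq_zero_or_pos K with h0 | h0
    · subst h0
      omega
    · exact h0
  have hnm : n / m = K := by
    rw [hK]
    exact Nat.mul_div_cancel_left _ (by omega)
  have hT := eG_T1 sh one bd hld hsum hn ⟨K, hK⟩ hm2 hg
  rw [hnm] at H1 H2 hT ⊢
  have hKn : 2 * K ≤ n := by
    rw [hK]
    exact Nat.mul_le_mul_right K hm2
  obtain ⟨a, ha⟩ := Nat.exists_eq_add_of_le (show K ≤ n by omega)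
  obtain ⟨c, hc⟩ := Nat.exists_eq_add_of_le (show 1 ≤ g - 1 by omega)
  have hgc : g = c + 2 := by omega
  have hn1 : n - K = a := by omega
  have hn2 : 1 ≤ n ^ 2 := Nat.one_le_pow _ _ hn
  have hDR : n * (n - K) * (g - 1) + 1 ≤ (n ^ 2 - 1) * (g - 1) := by
    have h5 : n * (n - K) + 2 ≤ n ^ 2 := by
      rw [hn1]
      have : n * a + n * K = n ^ 2 := by
        rw [← Nat.mul_add, pow_two]
        congr 1
        omega
      have h6 : 2 * 1 ≤ n * K := Nat.mul_le_mul (by omega) hKpos
      omega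
    have h6 : n * (n - K) + 1 ≤ n ^ 2 - 1 := by omega
    calc n * (n - K) * (g - 1) + 1 ≤ n * (n - K) * (g - 1) + (g - 1) := by omega
      _ = (n * (n - K) + 1) * (g - 1) := by ring
      _ ≤ _ := Nat.mul_le_mul_right _ h6
  have hN : (n * (n - 1) * (g - 1) + (g - 1) * (n * (K + 1))) + n * (n - K) * (g - 1) + 2
      = 2 * ((n ^ 2 - 1) * (g - 1)) + 2 * g := by
    obtain ⟨b, hb⟩ := Nat.exists_eq_add_of_le hn
    have e1 : n - 1 = b := by omega
    have e2 : n ^ 2 - 1 = b * b + 2 * b := by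
      rw [hb]
      have : (1 + b) ^ 2 = b * b + 2 * b + 1 := by ring
      omega
    rw [e1, e2, hn1, hc]
    have hab : a + K = 1 + b := by omega
    have h7 : n * a + n * K = (1 + b) * (1 + b) := by
      rw [← Nat.mul_add, hab, hb]
    have hg' : g = c + 2 := hgc
    have h8 : n * b * (1 + c) + (1 + c) * (n * (K + 1)) + n * a * (1 + c) + 2
        = (1 + c) * (n * b + n + (n * a + n * K)) + 2 := by ring
    rw [h8, h7, hb, hgc]
    ring
  exact fin (n * (n - K) * (g - 1)) ((n ^ 2 - 1) * (g - 1)) g (2 * n)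
    (n * (n - 1) * (g - 1) + (g - 1) * (n * (K + 1))) hg (by omega) hDR hN h H0 H1 H2 _ hT H3

end Vale.Agent.P275.H490
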