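import Vale.Agent.P275.H490.Cal
import Vale.Agent.P275.H341.Gen

/-!
# The generating coefficients to second order
-/

namespace Vale.Agent.P275.H490

open scoped BigOperators Topology
open Filter Vale.Agent.P275.H341

theorem pt_row {k : ℕ} (hk0 : 1 ≤ k) : (fun i : Fin k => if (i : ℕ) = 0 then k else 0) ∈ Pt k := by
  unfold Pt
  rw [Finset.mem_filter, Finset.Nat.mem_antidiagonalTuple]
  constructor
  · rw [Finset.sum_eq_single_of_mem (⟨0, hk0⟩ : Fin k) (Finset.mem_univ _)]
    · simp
    · intro b _ hb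
      have : (b : ℕ) ≠ 0 := fun h => hb (Fin.ext h)
      simp [this]
  · intro i j hij
    by_cases hj : (j : ℕ) = 0
    · have hi : (i : ℕ) = 0 := by
        have := Fin.le_def.mp hij
        omega
      simp [hi, hj]
    · simp [hj]

theorem om_zero (Ψ : ℂ →* ℂ) (q : ℂ) (d e : ℕ) : om Ψ q d e 0 = 1 := by
  unfold om
  have h1 : Pt 0 = {![]} := by
    ext f
    unfold Pt
    simp [Subsingleton.elim f ![]]
  rw [h1, Finset.sum_singleton]
  have h2 : hk (q ^ d) (![] : Fin 0 → ℕ) = 1 := by
    unfold hk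
    simp
  rw [h2, map_one, one_pow]

theorem sum_exp (d k : ℕ) : 2 * ∑ t ∈ Finset.range k, d * (t + 1) = d * (k * (k + 1)) := by
  induction k with
  | zero => simp
  | succ k ih =>
    rw [Finset.sum_range_succ, Nat.mul_add, ih]
    ring

theorem hk_row (one : RowONE) {k d : ℕ} (hk0 : 1 ≤ k) (hd : 1 ≤ d) :
    T1 (fun q => hk ((q : ℂ) ^ d) (fun i : Fin k => if (i : ℕ) = 0 then k else 0))
      (∑ t ∈ Finset.range k, d * (t + 1)) 1 (if d = 1 then -1 else 0) := by
  have h1 := T1.prod (Finset.range k) (fun t q => (q : ℂ) ^ (d * (t + 1)) - 1)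
    (fun t => d * (t + 1)) (fun t => if d * (t + 1) = 1 then -1 else 0)
    (fun t _ => T1.sub_one (Nat.mul_pos hd (Nat.succ_pos t)))
  have h2 : ∑ t ∈ Finset.range k, (if d * (t + 1) = 1 then (-1 : ℂ) else 0)
      = if d = 1 then -1 else 0 := by
    rw [Finset.sum_eq_single_of_mem 0 (Finset.mem_range.mpr hk0)]
    · simp
    · intro t _ ht
      rw [if_neg]
      intro h
      have := Nat.eq_one_of_mul_eq_one_left h
      omega
  rw [h2] at h1
  refine h1.congr ?_
  filter_upwards [eventually_ge_atTop 2] with q hq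
  have hq1 : (1 : ℕ) < q := hq
  have hnat : ∀ n, 0 < n → ((q : ℂ) ^ d) ^ n ≠ 1 := by
    intro n hn h
    rw [← pow_mul] at h
    have h3 : q ^ (d * n) = 1 := by exact_mod_cast h
    have h4 : 1 < q ^ (d * n) := Nat.one_lt_pow (Nat.mul_pos hd hn).ne' hq1
    omega
  rw [one k hk0 ((q : ℂ) ^ d) (pow_ne_zero _ (by exact_mod_cast (by omega : q ≠ 0))) hnat]
  apply Finset.prod_congr rfl
  intro t _
  rw [← pow_mul]

theorem om_T1 (sh : RowSH) (one : RowONE) (bd : RowBD) {g d e k : ℕ} (hg : 2 ≤ g) (hd : 1 ≤ d)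
    (he : 1 ≤ e) (hk0 : 1 ≤ k) :
    T1 (fun q => om (powMonoidHom (2 * g - 2)) q d e k) (d * e * (g - 1) * (k * (k + 1))) 1
      (if d = 1 then -((e : ℂ) * (2 * g - 2)) else 0) := by
  classical
  set row : Fin k → ℕ := fun i => if (i : ℕ) = 0 then k else 0 with hrow
  obtain ⟨c, rfl⟩ := Nat.exists_eq_add_of_le hg
  have h2g : 2 * (2 + c) - 2 = 2 * (1 + c) := by omega
  have hg1 : 2 + c - 1 = 1 + c := by omega
  have hcast : ((e : ℂ) * (2 * ((2 + c : ℕ) : ℂ) - 2)) = ((2 * (1 + c) * e : ℕ) : ℂ) := by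
    push_cast
    ring
  have hN : (∑ t ∈ Finset.range k, d * (t + 1)) * (2 * (1 + c) * e)
      = d * e * (2 + c - 1) * (k * (k + 1)) := by
    have := sum_exp d k
    rw [hg1]
    calc (∑ t ∈ Finset.range k, d * (t + 1)) * (2 * (1 + c) * e)
        = (2 * ∑ t ∈ Finset.range k, d * (t + 1)) * ((1 + c) * e) := by ring
      _ = _ := by
        rw [this]
        ring
  have hsum := T1.sum (Pt k) (fun lam q => (hk ((q : ℂ) ^ d) lam) ^ (2 * (1 + c) * e))
    (d * e * (2 + c - 1) * (k * (k + 1))) (fun lam => if lam = row then 1 else 0)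
    (fun lam => if lam = row then (if d = 1 then -((e : ℂ) * (2 * ((2 + c : ℕ) : ℂ) - 2)) else 0)
      else 0) (by
      intro lam hlam
      by_cases h : lam = row
      · subst h
        rw [if_pos rfl, if_pos rfl]
        have h3 := (hk_row one hk0 hd).pow (2 * (1 + c) * e)
        rw [hN] at h3
        have h4 : ((2 * (1 + c) * e : ℕ) : ℂ) * (if d = 1 then (-1 : ℂ) else 0)
            = if d = 1 then -((e : ℂ) * (2 * ((2 + c : ℕ) : ℂ) - 2)) else 0 := by
          rw [hcast]
          split_ifs <;> ring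
        rw [← h4]
        exact h3
      · rw [if_neg h, if_neg h]
        obtain ⟨hk2, hb⟩ := bd k lam hlam h
        have heven : ∃ e', 2 * e' = d * ∑ i, lam i * (lam i + 1) := by
          have : 2 ∣ d * ∑ i, lam i * (lam i + 1) := by
            apply Dvd.dvd.mul_left
            apply Finset.dvd_sum
            intro i _
            exact (Nat.even_mul_succ_self (lam i)).two_dvd
          obtain ⟨e', he'⟩ := this
          exact ⟨e', he'.symm⟩
        obtain ⟨e', he'⟩ := heven
        have h5 := (sh k d e' hd lam hlam he').pow (2 * (1 + c) * e)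
        rw [one_pow] at h5
        have h6 : Tendsto (fun q : ℕ => (hk ((q : ℂ) ^ d) lam) ^ (2 * (1 + c) * e) /
            (q : ℂ) ^ (e' * (2 * (1 + c) * e))) atTop (𝓝 1) := by
          refine h5.congr ?_
          intro q
          rw [div_pow, ← pow_mul]
        refine T1.of_lim h6 ?_
        rw [hg1]
        have h7 : e' * (2 * (1 + c) * e) = (d * e * (1 + c)) * ∑ i, lam i * (lam i + 1) := by
          calc e' * (2 * (1 + c) * e) = (2 * e') * ((1 + c) * e) := by ring
            _ = _ := by
              rw [he']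
              ring
        rw [h7]
        have h8 : 1 ≤ d * e * (1 + c) := Nat.mul_pos (Nat.mul_pos hd he) (by omega)
        calc (d * e * (1 + c)) * ∑ i, lam i * (lam i + 1) + 2
            ≤ (d * e * (1 + c)) * ∑ i, lam i * (lam i + 1) + (d * e * (1 + c)) * 2 := by
              have := Nat.mul_le_mul_right 2 h8
              omega
          _ = (d * e * (1 + c)) * (∑ i, lam i * (lam i + 1) + 2) := by ring
          _ ≤ _ := Nat.mul_le_mul_left _ hb)
  rw [Finset.sum_ite_eq' , Finset.sum_ite_eq', if_pos (pt_row hk0), if_pos (pt_row hk0)] at hsum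
  refine hsum.congr (Eventually.of_forall ?_)
  intro q
  unfold om
  apply Finset.sum_congr rfl
  intro lam _
  rw [powMonoidHom_apply, ← pow_mul, h2g]

end Vale.Agent.P275.H490
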